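import Vale.Agent.P075.H83.Abs

namespace Vale.Agent.Results.P075.AbsoluteSum

open MeasureTheory Vale.Agent.P075

/-- (1) Question Q2 as posed.  (2) For all `F₀, F₁, F₂ ∈ L³([0,∞)²)`, not necessarily bounded or
compactly supported: the integrals defining the local forms `L_I` converge absolutely, the local
forms over all scales `k ∈ ℤ` and all triples of dyadic intervals with XOR zero are absolutely
summable, and the sum of the absolute values is at most `(1827/2) ∏ ‖F_v‖₃`.  (3) Hence the bound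
with the same constant for all bounded coefficients which depend on the whole triple, all scales
at once, and (4) for `Λ^d_{S,ε}` on all of `L³`. -/
theorem result :
    (∃ C : ℝ, ∀ (S : Finset ℤ) (ε : ℤ → ℝ), (∀ k ∈ S, |ε k| ≤ 1) →
      ∀ F : Fin 3 → ℝ × ℝ → ℝ,
        (∀ v, AEStronglyMeasurable (F v) volume) →
        (∀ v, ∃ M : ℝ, ∀ p, |F v p| ≤ M) →
        (∀ v, HasCompactSupport (F v)) →
        |form S ε F| ≤ C * ∏ v, (eLpNorm (F v) 3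
          (volume.restrict (Set.Ici (0 : ℝ) ×ˢ Set.Ici (0 : ℝ)))).toReal) ∧
    ∀ F : Fin 3 → ℝ × ℝ → ℝ,
      (∀ v, MemLp (F v) 3 (volume.restrict (Set.Ici (0 : ℝ) ×ˢ Set.Ici (0 : ℝ)))) →
      (∀ (k : ℤ) (n : Fin 3 → ℕ), IntegrableOn
        (fun x : ℝ × ℝ × ℝ => F 0 (x.1, x.2.1) * F 1 (x.2.1, x.2.2) * F 2 (x.2.2, x.1) *
          (haar k (n 0) x.1 * haar k (n 1) x.2.1 * haar k (n 2) x.2.2))
        (dyad k (n 0) ×ˢ dyad k (n 1) ×ˢ dyad k (n 2))) ∧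
      (Summable (fun t : ℤ × {n : Fin 3 → ℕ // n 0 ^^^ n 1 ^^^ n 2 = 0} => |LI t.1 t.2.1 F|) ∧
        ∑' t : ℤ × {n : Fin 3 → ℕ // n 0 ^^^ n 1 ^^^ n 2 = 0}, |LI t.1 t.2.1 F|
          ≤ (1827 / 2) * ∏ v, (eLpNorm (F v) 3
            (volume.restrict (Set.Ici (0 : ℝ) ×ˢ Set.Ici (0 : ℝ)))).toReal) ∧
      (∀ ε : ℤ → (Fin 3 → ℕ) → ℝ, (∀ k n, |ε k n| ≤ 1) →
        |∑' t : ℤ × {n : Fin 3 → ℕ // n 0 ^^^ n 1 ^^^ n 2 = 0}, ε t.1 t.2.1 * LI t.1 t.2.1 F|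
          ≤ (1827 / 2) * ∏ v, (eLpNorm (F v) 3
            (volume.restrict (Set.Ici (0 : ℝ) ×ˢ Set.Ici (0 : ℝ)))).toReal) ∧
      (∀ (S : Finset ℤ) (ε : ℤ → ℝ), (∀ k ∈ S, |ε k| ≤ 1) →
        |form S ε F| ≤ (1827 / 2) * ∏ v, (eLpNorm (F v) 3
          (volume.restrict (Set.Ici (0 : ℝ) ×ˢ Set.Ici (0 : ℝ)))).toReal) :=
  ⟨⟨1827 / 2, fun S ε hε F hF hb hc => main S ε hε F hF hb hc⟩, fun _ hF =>
    ⟨fun k n => H83.integrableOn_of_memLp hF k n, H83.abs_main hF,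
      fun ε hε => (H83.coeff_main hF ε hε).2, fun S ε hε => H83.form_main hF S ε hε⟩⟩

end Vale.Agent.Results.P075.AbsoluteSum
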