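import Vale.Agent.P075.R.Final

/-!
# P075, Question 1: the triangular Hilbert form is bounded at (3,3,3), uniformly in the truncations
-/

namespace Vale.Agent.Results.P075.TriangularHilbertReal

open MeasureTheory Vale.Agent.P075.R

theorem kern_eq (ε R : ℝ) (G₀ G₁ G₂ : ℝ × ℝ → ℂ) : kern ε R G₀ G₁ G₂ =
    Set.indicator {x : ℝ × ℝ × ℝ | ε < |x.1 + x.2.1 + x.2.2| ∧ |x.1 + x.2.1 + x.2.2| < R}
      (fun x => G₀ (x.1, x.2.1) * G₁ (x.2.1, x.2.2) * G₂ (x.2.2, x.1)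
        / ((x.1 + x.2.1 + x.2.2 : ℝ) : ℂ)) := by
  funext x
  by_cases h : ε < |x.1 + x.2.1 + x.2.2| ∧ |x.1 + x.2.1 + x.2.2| < R
  · rw [Set.indicator_of_mem (by exact h), kern, if_pos h]
  · rw [Set.indicator_of_notMem (by exact h), kern, if_neg h]

theorem meas_set (ε R : ℝ) : MeasurableSet
    {x : ℝ × ℝ × ℝ | ε < |x.1 + x.2.1 + x.2.2| ∧ |x.1 + x.2.1 + x.2.2| < R} := by
  have h : Measurable fun x : ℝ × ℝ × ℝ => |x.1 + x.2.1 + x.2.2| := by fun_prop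
  exact (measurableSet_lt measurable_const h).inter (measurableSet_lt h measurable_const)

/-- There is a constant `C` such that, for all complex valued `G₀, G₁, G₂` in `L³` of the plane and
all `0 < ε < R`, the integral defining the truncated triangular Hilbert form converges absolutely
and is at most `C ‖G₀‖₃ ‖G₁‖₃ ‖G₂‖₃` in absolute value. -/
theorem result :
    ∃ C : ℝ, ∀ G₀ G₁ G₂ : ℝ × ℝ → ℂ,
      MemLp G₀ 3 volume → MemLp G₁ 3 volume → MemLp G₂ 3 volume →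
      ∀ ε R : ℝ, 0 < ε → ε < R →
        IntegrableOn (fun x : ℝ × ℝ × ℝ =>
            G₀ (x.1, x.2.1) * G₁ (x.2.1, x.2.2) * G₂ (x.2.2, x.1)
              / ((x.1 + x.2.1 + x.2.2 : ℝ) : ℂ))
          {x | ε < |x.1 + x.2.1 + x.2.2| ∧ |x.1 + x.2.1 + x.2.2| < R} volume ∧
        ‖∫ x in {x : ℝ × ℝ × ℝ | ε < |x.1 + x.2.1 + x.2.2| ∧ |x.1 + x.2.1 + x.2.2| < R},
            G₀ (x.1, x.2.1) * G₁ (x.2.1, x.2.2) * G₂ (x.2.2, x.1)
              / ((x.1 + x.2.1 + x.2.2 : ℝ) : ℂ)‖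
          ≤ C * ((eLpNorm G₀ 3 volume).toReal * (eLpNorm G₁ 3 volume).toReal
            * (eLpNorm G₂ 3 volume).toReal) := by
  obtain ⟨C, hC⟩ := full
  refine ⟨C, fun G₀ G₁ G₂ h₀ h₁ h₂ ε R hε hR => ?_⟩
  obtain ⟨hi, hb⟩ := hC G₀ G₁ G₂ h₀ h₁ h₂ ε R hε hR
  rw [kern_eq] at hi hb
  exact ⟨(integrable_indicator_iff (meas_set ε R)).1 hi,
    by rwa [integral_indicator (meas_set ε R)] at hb⟩

end Vale.Agent.Results.P075.TriangularHilbertReal
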